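import Vale.Agent.P366Y.J.Ga

/-!
# P366Y: the gauge functions in the test
-/

open Set
open Real (smoothTransition)

noncomputable section

namespace Vale.Agent.P366Y.M

open J

variable {P : Pa} {C y t : ℝ}

theorem lo_eq (hP : P.Ok) (y0 : 0 < y) (ht : 0 ≤ t) (h : t ≤ P.M₀ ^ 2) :
    P.Gs y t = P.L * y ^ 2 / (1 + P.L * y ^ 2 * t) ∧ P.om y t = √(1 / y ^ 2 + t) ∧
      (io P y t)⁻¹ = 1 + P.L * y ^ 2 * t := by
  obtain ⟨-, hL, -, -, -, hM, -⟩ := hP.pos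
  have M0 : 0 < P.M₀ ^ 2 := by positivity
  have a1 : 0 < 1 + P.L * y ^ 2 * t := by positivity
  have b1 : 0 < 1 + 4 * P.L * t := by positivity
  have e : 1 ≤ 2 - t / P.M₀ ^ 2 := by linarith [(div_le_one M0).2 h]
  have e1 : P.th t = 1 := smoothTransition.one_of_one_le e
  have e2 : GaH.td P t = 0 := by rw [GaH.td, GaH.sd_hi e, zero_div]
  have eG : P.Gs y t = P.L * y ^ 2 / (1 + P.L * y ^ 2 * t) := by
    rw [show P.Gs y t = GaH.F P y t from (GaH.der a1.ne' b1.ne').deriv, GaH.F, e1, e2]; simp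
  refine ⟨eG, by rw [Pa.om, e1]; simp, ?_⟩
  rw [io, eG]
  field_simp
  ring

theorem m_big (hP : P.Ok) (hB : P.Big C) : C * P.L ≤ P.φ₀ ^ 4 * P.M₀ ^ 2 ∧
    16 * (C * P.L) ≤ P.τ * P.φ₀ ^ 2 * P.M₀ := by
  obtain ⟨-, hL, τ0, τ1, -, hM, -⟩ := hP.pos
  obtain ⟨φ0, φ1⟩ := hP.φ0
  obtain ⟨η0, η1⟩ := hP.η0
  have e1 : P.φ₀ ^ 4 ≤ P.φ₀ ^ 2 := pow_le_pow_of_le_one φ0.le φ1 (by norm_num)
  have e2 : P.M₀ ≤ P.M₀ ^ 2 := le_self_pow₀ hM two_ne_zero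
  constructor
  · calc C * P.L ≤ P.η * P.τ * P.φ₀ ^ 4 * P.M₀ := hB.b3
      _ ≤ 1 * 1 * P.φ₀ ^ 4 * P.M₀ ^ 2 := by gcongr; linarith
      _ = _ := by ring
  · calc 16 * (C * P.L) ≤ 16 * (P.η * P.τ * P.φ₀ ^ 4 * P.M₀) := by linarith [hB.b3]
      _ ≤ 16 * (1 / 16 * P.τ * P.φ₀ ^ 2 * P.M₀) := by gcongr
      _ = _ := by ring

theorem io_pos {c : ℝ} (hP : P.Ok) (ht : 0 ≤ t) (g : Ga P c y t) :
    0 < io P y t ∧ io P y t ≤ 1 ∧ (io P y t)⁻¹ ≤ 1 + 4 * P.L * t ∧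
      1 + P.Gs y t / io P y t * t = (io P y t)⁻¹ := by
  have hL := hP.pos.2.1
  have b1 : 0 < 1 + 4 * P.L * t := by positivity
  have i0 : 0 < io P y t := lt_of_lt_of_le (by positivity) g.io1
  refine ⟨i0, sub_le_self _ (mul_nonneg ht g.Gs0), ?_, ?_⟩
  · rw [inv_le_comm₀ i0 b1, ← one_div]; exact g.io1
  · field_simp
    rw [io]; ring

/-- the coefficient of the gauge is large -/
theorem lam_ge {c : ℝ} (hP : P.Ok) (hB : P.Big C) (c1 : 1 ≤ c) (hc : 2 * c ≤ C) (hy : P.φ₀ ≤ y)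
    (ht : 0 ≤ t) (g : Ga P c y t) : P.L * y ^ 2 ≤ 2 * c * (P.Gs y t / io P y t) := by
  obtain ⟨i0, -, -, -⟩ := io_pos hP ht g
  obtain ⟨-, hL, -, -, -, hM, -⟩ := hP.pos
  obtain ⟨φ0, φ1⟩ := hP.φ0
  have y0 : 0 < y := φ0.trans_le hy
  rcases le_total t (P.M₀ ^ 2) with h | h
  · obtain ⟨e1, -, e3⟩ := lo_eq hP y0 ht h
    rw [div_eq_mul_inv, e3, e1, div_mul_cancel₀ _ (by positivity)]
    exact le_mul_of_one_le_left (by positivity) (by linarith)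
  · have t0 : 0 < t := lt_of_lt_of_le (by positivity) h
    have a1 : 2 * c ≤ P.L * y ^ 2 * t := by
      have e1 : P.φ₀ ^ 4 ≤ P.φ₀ ^ 2 := pow_le_pow_of_le_one φ0.le φ1 (by norm_num)
      calc 2 * c ≤ C * P.L := hc.trans (le_mul_of_one_le_right (by linarith) hL)
        _ ≤ P.φ₀ ^ 4 * P.M₀ ^ 2 := (m_big hP hB).1
        _ ≤ y ^ 2 * t := mul_le_mul (e1.trans (by gcongr)) h (by positivity) (by positivity)
        _ ≤ _ := by rw [mul_assoc]; exact le_mul_of_one_le_left (by positivity) hL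
    have a2 := g.io2
    have a3 : io P y t ≤ 1 / 2 := by nlinarith
    rw [mul_div_assoc', le_div_iff₀ i0]
    refine le_of_mul_le_mul_right ?_ t0
    have a4 : t * P.Gs y t = 1 - io P y t := by rw [io]; ring
    nlinarith

/-- the defect of the gauge -/
theorem ratio {c φ κ : ℝ} (hP : P.Ok) (hB : P.Big C) (C0 : 0 < C) (hφ : P.φ₀ ≤ φ) (hy : φ ≤ y)
    (ht : 0 ≤ t) (g : Ga P c y t) : 0 ≤ φ / √(1 + φ ^ 2 * t) * P.om y t ∧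
    φ / √(1 + φ ^ 2 * t) * P.om y t ≤ 1 ∧ (y ≤ φ + κ →
      (io P y t)⁻¹ * (φ / √(1 + φ ^ 2 * t) * P.om y t - 1) ^ 2 ≤
        20 * P.L * κ ^ 2 / P.φ₀ ^ 4 + 5 / C) := by
  obtain ⟨i0, -, i2, -⟩ := io_pos hP ht g
  obtain ⟨-, hL, -, -, -, hM, -⟩ := hP.pos
  obtain ⟨φ0, φ1⟩ := hP.φ0
  have p0 : 0 < φ := φ0.trans_le hφ
  have y0 : 0 < y := p0.trans_le hy
  have w0 : 0 < 1 + φ ^ 2 * t := by positivity
  have r0 : 0 ≤ φ / √(1 + φ ^ 2 * t) * P.om y t := by have := g.om0; positivity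
  have r2 : (φ / √(1 + φ ^ 2 * t) * P.om y t) ^ 2 * (1 + φ ^ 2 * t) = φ ^ 2 * P.om y t ^ 2 := by
    rw [mul_pow, div_pow, Real.sq_sqrt w0.le]; field_simp
  have q1 : φ ^ 2 * (1 / y ^ 2) ≤ 1 := by
    rw [mul_one_div, div_le_one (by positivity)]; gcongr
  have o2 := mul_le_mul_of_nonneg_left g.om2 (sq_nonneg φ)
  generalize φ / √(1 + φ ^ 2 * t) * P.om y t = ρ at *
  have r1 : ρ ≤ 1 := by
    refine sq_le_sq₀ r0 zero_le_one |>.1 ?_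
    exact le_of_mul_le_mul_right (by linarith) w0
  refine ⟨r0, r1, fun hκ => ?_⟩
  have d0 : 0 ≤ 1 - ρ := by linarith
  have d1 : (1 - ρ) * (1 + φ ^ 2 * t) ≤ 1 + φ ^ 2 * t - φ ^ 2 * P.om y t ^ 2 := by
    nlinarith [mul_nonneg (mul_nonneg r0 d0) w0.le]
  have k0 : 0 ≤ κ := by linarith
  refine (mul_le_mul_of_nonneg_right i2 (sq_nonneg _)).trans ?_
  rw [show (ρ - 1) ^ 2 = (1 - ρ) ^ 2 by ring]
  have f2 : P.φ₀ ^ 2 ≤ φ ^ 2 := by gcongr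
  rcases le_total t (P.M₀ ^ 2) with h | h
  · rw [(lo_eq hP y0 ht h).2.1, Real.sq_sqrt (by positivity)] at d1
    have a1 : 1 - φ ^ 2 * (1 / y ^ 2) ≤ 2 * κ / P.φ₀ := by
      have : 2 * κ / y ≤ 2 * κ / P.φ₀ := by gcongr; linarith
      refine le_trans ?_ this
      rw [mul_one_div, one_sub_div (by positivity), div_le_div_iff₀ (by positivity) y0]
      nlinarith [mul_nonneg (mul_nonneg y0.le y0.le) (sub_nonneg.2 hκ),
        mul_nonneg y0.le (sq_nonneg (y - φ))]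
    have a2 : (1 - ρ) * (1 + φ ^ 2 * t) ≤ 2 * κ / P.φ₀ := by linarith
    have a3 : 1 - ρ ≤ 2 * κ / P.φ₀ :=
      (le_mul_of_one_le_right d0 (le_add_of_nonneg_right (by positivity))).trans a2
    have a4 : 1 + 4 * P.L * t ≤ 5 * P.L / P.φ₀ ^ 2 * (1 + φ ^ 2 * t) := by
      rw [div_mul_eq_mul_div, le_div_iff₀ (by positivity)]
      have := pow_le_one₀ φ0.le φ1 (n := 2)
      nlinarith [mul_nonneg (mul_nonneg (by linarith : 0 ≤ P.L) ht) (sub_nonneg.2 f2),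
        mul_nonneg (mul_nonneg (by linarith : 0 ≤ P.L) ht) (sq_nonneg φ)]
    calc (1 + 4 * P.L * t) * (1 - ρ) ^ 2
        ≤ 5 * P.L / P.φ₀ ^ 2 * (1 + φ ^ 2 * t) * (1 - ρ) ^ 2 := by gcongr
      _ = 5 * P.L / P.φ₀ ^ 2 * (((1 - ρ) * (1 + φ ^ 2 * t)) * (1 - ρ)) := by ring
      _ ≤ 5 * P.L / P.φ₀ ^ 2 * (2 * κ / P.φ₀ * (2 * κ / P.φ₀)) := by gcongr
      _ = 20 * P.L * κ ^ 2 / P.φ₀ ^ 4 := by field_simp; ring
      _ ≤ _ := le_add_of_nonneg_right (by positivity)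
  · have t1 : 1 ≤ t := (one_le_pow₀ hM).trans h
    have o1 := mul_le_mul_of_nonneg_left g.om1 (sq_nonneg φ)
    have a1 : (1 - ρ) * (P.φ₀ ^ 2 * t) ≤ 1 := by
      have : (1 - ρ) * (P.φ₀ ^ 2 * t) ≤ (1 - ρ) * (1 + φ ^ 2 * t) := by
        gcongr; nlinarith
      nlinarith [sq_nonneg φ]
    have a2 : ((1 - ρ) * (P.φ₀ ^ 2 * t)) ^ 2 ≤ 1 := pow_le_one₀ (by positivity) a1
    have a3 : C * P.L ≤ P.φ₀ ^ 4 * t := (m_big hP hB).1.trans (by gcongr)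
    have a4 : 1 + 4 * P.L * t ≤ 5 * P.L * t := by nlinarith
    refine le_trans ?_ (le_add_of_nonneg_left (by positivity))
    rw [le_div_iff₀ C0]
    calc (1 + 4 * P.L * t) * (1 - ρ) ^ 2 * C ≤ 5 * P.L * t * (1 - ρ) ^ 2 * C := by gcongr
      _ = 5 * (t * (1 - ρ) ^ 2 * (C * P.L)) := by ring
      _ ≤ 5 * (t * (1 - ρ) ^ 2 * (P.φ₀ ^ 4 * t)) := by gcongr
      _ = 5 * ((1 - ρ) * (P.φ₀ ^ 2 * t)) ^ 2 := by ring
      _ ≤ 5 := by linarith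

/-- the cost of the floor -/
theorem cost {c d : ℝ} (hP : P.Ok) (hB : P.Big C) (d1 : 1 ≤ d) (hd : d ≤ C) (hy : P.φ₀ ≤ y)
    (hy' : y ≤ 2 * P.φ₀) (ht : 0 ≤ t) (g : Ga P c y t) :
    d * (P.φ₀ * √(1 + P.φ₀ ^ 2 * t) * (1 + (io P y t * (1 + P.φ₀ ^ 2 * t))⁻¹)) ≤
      P.φ₀ ^ 2 * (P.τ * t) / 2 + 17 * d ^ 2 * P.η / C := by
  obtain ⟨i0, -, i2, -⟩ := io_pos hP ht g
  obtain ⟨-, hL, τ0, τ1, -, hM, -⟩ := hP.pos
  obtain ⟨φ0, φ1⟩ := hP.φ0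
  have y0 : 0 < y := φ0.trans_le hy
  have C0 : 0 < C := by linarith
  obtain ⟨s, s0, rfl⟩ : ∃ s, 0 ≤ s ∧ t = s ^ 2 := ⟨√t, Real.sqrt_nonneg t, (Real.sq_sqrt ht).symm⟩
  have w0 : 0 < 1 + P.φ₀ ^ 2 * s ^ 2 := by positivity
  have w1 := Real.sq_sqrt w0.le
  have w2 := Real.sqrt_pos.2 w0
  rw [mul_inv]
  have lo := lo_eq hP y0 ht
  generalize √(1 + P.φ₀ ^ 2 * s ^ 2) = W at *
  generalize (io P y (s ^ 2))⁻¹ = Γ at *
  rw [← w1]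
  have q0 : 0 ≤ P.φ₀ * s := by positivity
  have W1 : W ≤ 1 + P.φ₀ * s := sq_le_sq₀ w2.le (by positivity) |>.1 (by nlinarith)
  have W2 : P.φ₀ * s ≤ W := sq_le_sq₀ q0 w2.le |>.1 (by nlinarith)
  have W3 : 1 ≤ W := sq_le_sq₀ zero_le_one w2.le |>.1 (by nlinarith)
  have am : ∀ a : ℝ, a * s ≤ P.τ * s ^ 2 / 4 + a ^ 2 / P.τ := fun a => by
    have : P.τ * s ^ 2 / 4 + a ^ 2 / P.τ - a * s = (P.τ * s / 2 - a) ^ 2 / P.τ := by
      field_simp; ring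
    have h : 0 ≤ (P.τ * s / 2 - a) ^ 2 / P.τ := by positivity
    linarith
  have e : d * (P.φ₀ * W * (1 + Γ * (W ^ 2)⁻¹)) = d * P.φ₀ * W + d * P.φ₀ * Γ / W := by
    field_simp
  have p2 : 0 < P.φ₀ ^ 2 := by positivity
  have a1 : d * P.φ₀ * W ≤ d * P.φ₀ + P.φ₀ ^ 2 * (P.τ * s ^ 2 / 4 + d ^ 2 / P.τ) := by
    have := mul_le_mul_of_nonneg_left W1 (by positivity : 0 ≤ d * P.φ₀)
    nlinarith [mul_le_mul_of_nonneg_left (am d) p2.le]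
  have a2 : d * P.φ₀ * Γ / W ≤
      d * P.φ₀ + P.φ₀ ^ 2 * (P.τ * s ^ 2 / 4 + (4 * d * P.L) ^ 2 / P.τ) := by
    have key : ∀ b ≥ (0 : ℝ), Γ ≤ 1 + b * s ^ 2 → d * P.φ₀ * Γ / W ≤ d * P.φ₀ + d * b * s :=
      fun b b0 h => by
        rw [div_le_iff₀ w2]
        have h1 := mul_le_mul_of_nonneg_left h (by positivity : 0 ≤ d * P.φ₀)
        have h2 := mul_le_mul_of_nonneg_left W3 (by positivity : 0 ≤ d * P.φ₀)
        have h3 := mul_le_mul_of_nonneg_left W2 (by positivity : 0 ≤ d * b * s)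
        linarith
    rcases le_total (s ^ 2) (P.M₀ ^ 2) with h | h
    · have h1 := key (4 * P.L * P.φ₀ ^ 2) (by positivity) ((lo h).2.2.le.trans (by
        have : y ^ 2 ≤ (2 * P.φ₀) ^ 2 := by gcongr
        have := mul_le_mul_of_nonneg_left this (by positivity : 0 ≤ P.L * s ^ 2)
        linarith))
      nlinarith [mul_le_mul_of_nonneg_left (am (4 * d * P.L)) p2.le]
    · have h1 := key (4 * P.L) (by positivity) i2
      have h2 : P.M₀ ≤ s := sq_le_sq₀ (by linarith) s0 |>.1 h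
      have h3 : 16 * (d * P.L) ≤ P.τ * P.φ₀ ^ 2 * s :=
        le_trans (by gcongr) ((m_big hP hB).2.trans (by gcongr))
      have h4 := mul_le_mul_of_nonneg_right h3 s0
      have h5 : 0 ≤ P.φ₀ ^ 2 * ((4 * d * P.L) ^ 2 / P.τ) := by positivity
      linarith
  have b1 : P.L * (P.φ₀ + P.L * P.φ₀ ^ 2 / P.τ) ≤ P.η / C := by
    rw [le_div_iff₀ C0]; linarith [hB.b4]
  have b2 := mul_le_mul_of_nonneg_left b1 (by positivity : 0 ≤ 17 * d ^ 2)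
  have b3 : 2 * d * P.φ₀ ≤ 17 * d ^ 2 * P.L * P.φ₀ := by
    gcongr ?_ * _
    nlinarith [mul_le_mul_of_nonneg_left hL (sq_nonneg d)]
  have b4 : P.φ₀ ^ 2 * (d ^ 2 / P.τ) ≤ P.L ^ 2 * (P.φ₀ ^ 2 * (d ^ 2 / P.τ)) :=
    le_mul_of_one_le_left (by positivity) (one_le_pow₀ hL)
  have e2 : 17 * d ^ 2 * (P.L * (P.φ₀ + P.L * P.φ₀ ^ 2 / P.τ)) = 17 * d ^ 2 * P.L * P.φ₀ +
      P.L ^ 2 * (P.φ₀ ^ 2 * (d ^ 2 / P.τ)) + P.φ₀ ^ 2 * ((4 * d * P.L) ^ 2 / P.τ) := by ring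
  rw [e, mul_div_assoc (17 * d ^ 2)]
  linarith

end Vale.Agent.P366Y.M
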